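import Vale.Agent.P328.GFacts
import Vale.Agent.P328.GBridge

/-!
An almost uniform sampler for contingency tables with arbitrary margins, in time polynomial in the
binary length of the margins and in `log (1 / ε)`.
-/

namespace Vale.Agent.Results.P328.ASampler

open Vale.Agent.P328 Vale.Agent.Lib.PTM

theorem result : ∃ (M : Machine) (d : ℕ), ∀ (m n : ℕ) (r : Fin m → ℕ) (c : Fin n → ℕ),
    1 ≤ m → 1 ≤ n → ∑ i, r i = ∑ j, c j → ∀ ε : ℚ, 0 < ε → ε < 1 → ∀ (L : ℝ) (T : ℕ),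
      L = m + n + ∑ i, Real.logb 2 (r i + 2) + ∑ j, Real.logb 2 (c j + 2) →
      (L + Real.logb 2 (1 / (ε : ℝ)) + Real.logb 2 ε.num) ^ d ≤ T →
      ∀ out : (Fin T → Bool) → M.Cfg,
        (∀ ρ, out ρ = M.run (pair (vec r) (pair (vec c) (rat ε))) (List.ofFn ρ)) →
        (∀ ρ, (out ρ).l = none ∧ ∃ X ∈ tables r c, (out ρ).stk 0 = mat X) ∧
        (1 / 2 : ℝ) * ∑ X ∈ tables r c, |(Nat.card {ρ // (out ρ).stk 0 = mat X} : ℝ) / 2 ^ T -
          1 / (tables r c).card| ≤ ε :=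
  statement_of_facts fun _ _ P => P.facts

end Vale.Agent.Results.P328.ASampler
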