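import Vale.Agent.P328F.Bridge

/-!
Contingency tables with arbitrary margins: an almost uniform sampler, in time polynomial in the
binary length of the margins and in `log (1 / ε)`, and a fully polynomial randomised approximation
scheme for their number.
-/

namespace Vale.Agent.Results.P328.ASamplerFpras

open Vale.Agent.P328 Vale.Agent.Lib.PTM

theorem result :
    (∃ (M : Machine) (d : ℕ), ∀ (m n : ℕ) (r : Fin m → ℕ) (c : Fin n → ℕ),
      1 ≤ m → 1 ≤ n → ∑ i, r i = ∑ j, c j → ∀ ε : ℚ, 0 < ε → ε < 1 → ∀ (L : ℝ) (T : ℕ),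
        L = m + n + ∑ i, Real.logb 2 (r i + 2) + ∑ j, Real.logb 2 (c j + 2) →
        (L + Real.logb 2 (1 / (ε : ℝ)) + Real.logb 2 ε.num) ^ d ≤ T →
        ∀ out : (Fin T → Bool) → M.Cfg,
          (∀ ρ, out ρ = M.run (pair (vec r) (pair (vec c) (rat ε))) (List.ofFn ρ)) →
          (∀ ρ, (out ρ).l = none ∧ ∃ X ∈ tables r c, (out ρ).stk 0 = mat X) ∧
          (1 / 2 : ℝ) * ∑ X ∈ tables r c, |(Nat.card {ρ // (out ρ).stk 0 = mat X} : ℝ) / 2 ^ T -
            1 / (tables r c).card| ≤ ε) ∧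
    ∃ (M : Machine) (d : ℕ), ∀ (m n : ℕ) (r : Fin m → ℕ) (c : Fin n → ℕ),
      1 ≤ m → 1 ≤ n → ∑ i, r i = ∑ j, c j → ∀ ε η : ℚ, 0 < ε → ε < 1 → 0 < η → η < 1 →
        ∀ (L : ℝ) (T : ℕ), L = m + n + ∑ i, Real.logb 2 (r i + 2) + ∑ j, Real.logb 2 (c j + 2) →
        (L + 1 / (ε : ℝ) + Real.logb 2 (1 / (η : ℝ)) + Real.logb 2 ε.num + Real.logb 2 η.num) ^ d ≤
          T →
        ∀ out : (Fin T → Bool) → M.Cfg,
          (∀ ρ, out ρ = M.run (pair (vec r) (pair (vec c) (pair (rat ε) (rat η)))) (List.ofFn ρ)) →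
          (∀ ρ, (out ρ).l = none ∧ ∃ a : ℕ, (out ρ).stk 0 = a.bits) ∧
          (1 - η : ℝ) ≤ (Nat.card {ρ // ∃ a : ℕ, (out ρ).stk 0 = a.bits ∧
            (1 - ε : ℝ) * (tables r c).card ≤ a ∧ (a : ℝ) ≤ (1 + ε) * (tables r c).card} : ℝ) /
              2 ^ T :=
  ⟨statement_of_facts fun _ _ P => P.facts, Vale.Agent.P328F.fpras⟩

end Vale.Agent.Results.P328.ASamplerFpras
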